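import Vale.Agent.P042.Base
import Vale.Agent.P042.MainU

open Polynomial

namespace Vale.Agent.Results.P042.DegreeUniform

open Vale.Agent.P042

/-- For every `k ≥ 2` there is `c = c(k) > 0` such that every intersective `h ∈ ℤ[x]` of degree
`k` with positive leading coefficient satisfies `r_h(N) ≤ C(h) N exp(-c √(log N))`. -/
theorem result (k : ℕ) (hk : 2 ≤ k) :
    ∃ c : ℝ, 0 < c ∧ ∀ h : ℤ[X], Intersective h → h.natDegree = k → 0 < h.leadingCoeff →
      ∃ C : ℝ, 0 < C ∧ ∀ N : ℕ, 1 ≤ N →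
        (rh h N : ℝ) ≤ C * N * Real.exp (-c * Real.sqrt (Real.log N)) :=
  intersective_bound_unif k hk

end Vale.Agent.Results.P042.DegreeUniform
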