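import Vale.Agent.P042.Base
import Vale.Agent.P042.Main

open Polynomial

namespace Vale.Agent.Results.P042.IntersectiveSqrtLog

open Vale.Agent.P042

/-- For every intersective `h ∈ ℤ[x]` of degree `≥ 2` with positive leading coefficient,
`r_h(N) ≤ C N exp(-c √(log N))` for all `N ≥ 1`. -/
theorem result (h : ℤ[X]) (hint : Intersective h) (hdeg : 2 ≤ h.natDegree)
    (hlc : 0 < h.leadingCoeff) :
    ∃ c C : ℝ, 0 < c ∧ 0 < C ∧ ∀ N : ℕ, 1 ≤ N →
      (rh h N : ℝ) ≤ C * N * Real.exp (-c * Real.sqrt (Real.log N)) :=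
  intersective_bound h hint hdeg hlc

end Vale.Agent.Results.P042.IntersectiveSqrtLog
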